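import Vale.Agent.P086.Defs

/-!
# Elementary facts on generated algebras, conjugation and the vector state
-/

noncomputable section

namespace Vale.Agent.P086

open scoped InnerProductSpace ENNReal BigOperators

universe u v

variable {H : Type u} [NormedAddCommGroup H] [InnerProductSpace ℂ H] [CompleteSpace H]
variable {H' : Type v} [NormedAddCommGroup H'] [InnerProductSpace ℂ H'] [CompleteSpace H']
variable {s t : Set (H →L[ℂ] H)} {a b : H →L[ℂ] H} {ι : Type*}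

lemma subset_vn (s : Set (H →L[ℂ] H)) : s ⊆ vn s :=
  fun _ hx => Set.subset_centralizer_centralizer (Or.inl hx)

lemma vn_mono (h : s ⊆ t) : vn s ⊆ vn t :=
  Set.centralizer_subset (Set.centralizer_subset (Set.union_subset_union h (Set.image_mono h)))

lemma vn_eq_subalgebra (s : Set (H →L[ℂ] H)) :
    vn s = (StarSubalgebra.centralizer ℂ (Set.centralizer (s ∪ star '' s)) :
      Set (H →L[ℂ] H)) := by
  ext x
  simp only [vn, SetLike.mem_coe, StarSubalgebra.mem_centralizer_iff, Set.mem_centralizer_iff]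
  refine ⟨fun h g hg => ⟨h g hg, h (star g) fun y hy => ?_⟩, fun h g hg => (h g hg).1⟩
  have hy' : star y ∈ s ∪ star '' s := by
    rcases hy with hy | ⟨z, hz, rfl⟩
    · exact Or.inr ⟨y, hy, rfl⟩
    · exact Or.inl (by rwa [star_star])
  simpa [star_mul] using (congrArg star (hg (star y) hy')).symm

/-- The generated algebra as a star subalgebra. -/
def vnSub (s : Set (H →L[ℂ] H)) : StarSubalgebra ℂ (H →L[ℂ] H) :=
  StarSubalgebra.centralizer ℂ (Set.centralizer (s ∪ star '' s))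

lemma mem_vnSub : a ∈ vnSub s ↔ a ∈ vn s := by
  rw [vn_eq_subalgebra]; rfl

lemma vn_one : (1 : H →L[ℂ] H) ∈ vn s := mem_vnSub.1 (one_mem _)

lemma vn_zero : (0 : H →L[ℂ] H) ∈ vn s := mem_vnSub.1 (zero_mem _)

lemma vn_add (ha : a ∈ vn s) (hb : b ∈ vn s) : a + b ∈ vn s :=
  mem_vnSub.1 (add_mem (mem_vnSub.2 ha) (mem_vnSub.2 hb))

lemma vn_sub (ha : a ∈ vn s) (hb : b ∈ vn s) : a - b ∈ vn s :=
  mem_vnSub.1 (sub_mem (mem_vnSub.2 ha) (mem_vnSub.2 hb))

lemma vn_neg (ha : a ∈ vn s) : -a ∈ vn s := mem_vnSub.1 (neg_mem (mem_vnSub.2 ha))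

lemma vn_mul (ha : a ∈ vn s) (hb : b ∈ vn s) : a * b ∈ vn s :=
  mem_vnSub.1 (mul_mem (mem_vnSub.2 ha) (mem_vnSub.2 hb))

lemma vn_star (ha : a ∈ vn s) : star a ∈ vn s := mem_vnSub.1 (star_mem (mem_vnSub.2 ha))

lemma vn_smul (c : ℂ) (ha : a ∈ vn s) : c • a ∈ vn s :=
  mem_vnSub.1 (SMulMemClass.smul_mem c (mem_vnSub.2 ha))

lemma vn_pow (ha : a ∈ vn s) (n : ℕ) : a ^ n ∈ vn s :=
  mem_vnSub.1 (pow_mem (mem_vnSub.2 ha) n)

lemma vn_wprod {X : ι → H →L[ℂ] H} (l : List ι) (h : ∀ i ∈ l, X i ∈ vn s) :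
    wprod X l ∈ vn s := by
  refine mem_vnSub.1 (list_prod_mem fun x hx => ?_)
  obtain ⟨i, hi, rfl⟩ := List.mem_map.1 hx
  exact mem_vnSub.2 (h i hi)

lemma vn_sum {κ : Type*} (F : Finset κ) {f : κ → H →L[ℂ] H} (h : ∀ k ∈ F, f k ∈ vn s) :
    ∑ k ∈ F, f k ∈ vn s :=
  mem_vnSub.1 (sum_mem fun k hk => mem_vnSub.2 (h k hk))

lemma adjoin_subset_vn (s : Set (H →L[ℂ] H)) :
    (StarAlgebra.adjoin ℂ s : Set (H →L[ℂ] H)) ⊆ vn s := by
  intro x hx
  exact mem_vnSub.1 (StarAlgebra.adjoin_le (fun y hy => mem_vnSub.2 (subset_vn s hy)) hx)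

lemma isClosed_vn (s : Set (H →L[ℂ] H)) : IsClosed (vn s) := by
  simp only [vn, Set.centralizer, Set.ofPred_forall]
  exact isClosed_biInter fun m _ =>
    isClosed_eq (continuous_const.mul continuous_id) (continuous_id.mul continuous_const)

/-- A set inside a generated algebra generates inside it. -/
lemma vn_le (h : s ⊆ vn t) : vn s ⊆ vn t := by
  have h1 : Set.centralizer (t ∪ star '' t) ⊆ Set.centralizer (s ∪ star '' s) := by
    intro y hy m hm
    rcases hm with hm | ⟨z, hz, rfl⟩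
    · exact (h hm y hy).symm
    · exact (vn_star (h hz) y hy).symm
  exact Set.centralizer_subset h1

/-- Continuous functions of a member are members. -/
lemma vn_elemental (ha : a ∈ vn s) {x : H →L[ℂ] H}
    (hx : x ∈ StarAlgebra.elemental ℂ a) : x ∈ vn s := by
  refine (isClosed_vn s).closure_subset_iff.2 ?_ hx
  intro y hy
  exact vn_le (Set.singleton_subset_iff.2 ha) (adjoin_subset_vn {a} hy)

section Conj

set_option linter.unusedSectionVars false

variable (U : H ≃ₗᵢ[ℂ] H')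

@[simp] lemma conjU_apply (a : H →L[ℂ] H) (x : H') : conjU U a x = U (a (U.symm x)) := rfl

lemma conjU_mul (a b : H →L[ℂ] H) : conjU U (a * b) = conjU U a * conjU U b := by
  ext x; simp [mul_apply_eq_comp]

lemma conjU_one : conjU U (1 : H →L[ℂ] H) = 1 := by
  ext x; simp

lemma conjU_add (a b : H →L[ℂ] H) : conjU U (a + b) = conjU U a + conjU U b := by
  ext x; simp

lemma conjU_sub (a b : H →L[ℂ] H) : conjU U (a - b) = conjU U a - conjU U b := by
  ext x; simp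

lemma conjU_smul (c : ℂ) (a : H →L[ℂ] H) : conjU U (c • a) = c • conjU U a := by
  ext x; simp

lemma conjU_star (a : H →L[ℂ] H) : conjU U (star a) = star (conjU U a) := by
  rw [ContinuousLinearMap.star_eq_adjoint, ContinuousLinearMap.star_eq_adjoint]
  refine (ContinuousLinearMap.eq_adjoint_iff _ _).2 fun x y => ?_
  rw [conjU_apply, conjU_apply]
  calc ⟪U (ContinuousLinearMap.adjoint a (U.symm x)), y⟫_ℂ
      = ⟪U (ContinuousLinearMap.adjoint a (U.symm x)), U (U.symm y)⟫_ℂ := by simp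
    _ = ⟪ContinuousLinearMap.adjoint a (U.symm x), U.symm y⟫_ℂ := U.inner_map_map _ _
    _ = ⟪U.symm x, a (U.symm y)⟫_ℂ := ContinuousLinearMap.adjoint_inner_left _ _ _
    _ = ⟪U (U.symm x), U (a (U.symm y))⟫_ℂ := (U.inner_map_map _ _).symm
    _ = ⟪x, U (a (U.symm y))⟫_ℂ := by simp

lemma conjU_wprod (X : ι → H →L[ℂ] H) (l : List ι) :
    conjU U (wprod X l) = wprod (fun i => conjU U (X i)) l := by
  induction l with
  | nil => simp [wprod, conjU_one]
  | cons i l ih =>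
    simp only [wprod, List.map_cons, List.prod_cons] at ih ⊢
    rw [conjU_mul, ih]

lemma tr_conjU (Ω : H) (a : H →L[ℂ] H) : tr (U Ω) (conjU U a) = tr Ω a := by
  simp [tr]

lemma norm_conjU_apply (Ω : H) (a : H →L[ℂ] H) : ‖conjU U a (U Ω)‖ = ‖a Ω‖ := by
  simp

end Conj

lemma wprod_nil (X : ι → H →L[ℂ] H) : wprod X [] = 1 := rfl

lemma wprod_cons (X : ι → H →L[ℂ] H) (i : ι) (l : List ι) :
    wprod X (i :: l) = X i * wprod X l := rfl

lemma wprod_append (X : ι → H →L[ℂ] H) (l m : List ι) :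
    wprod X (l ++ m) = wprod X l * wprod X m := by
  simp [wprod]

/-- Squared vector norms are traces. -/
lemma tr_star_mul (Ω : H) (a : H →L[ℂ] H) : tr Ω (star a * a) = ((‖a Ω‖ ^ 2 : ℝ) : ℂ) := by
  rw [tr, mul_apply_eq_comp, ContinuousLinearMap.star_eq_adjoint,
    ContinuousLinearMap.adjoint_inner_right, inner_self_eq_norm_sq_to_K]
  simp

lemma tr_add (Ω : H) (a b : H →L[ℂ] H) : tr Ω (a + b) = tr Ω a + tr Ω b := by
  simp [tr, inner_add_right]

lemma tr_smul (Ω : H) (c : ℂ) (a : H →L[ℂ] H) : tr Ω (c • a) = c * tr Ω a := by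
  simp [tr, inner_smul_right]

lemma norm_tr_le (Ω : H) (hΩ : ‖Ω‖ = 1) (a : H →L[ℂ] H) : ‖tr Ω a‖ ≤ ‖a Ω‖ := by
  simpa [tr, hΩ] using norm_inner_le_norm (𝕜 := ℂ) Ω (a Ω)

lemma norm_apply_le (Ω : H) (hΩ : ‖Ω‖ = 1) (a : H →L[ℂ] H) : ‖a Ω‖ ≤ ‖a‖ := by
  simpa [hΩ] using a.le_opNorm Ω

end Vale.Agent.P086
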