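import Mathlib

/-!
# Vocabulary for the isomorphism of free group factors of rank two and three

A system is a family of bounded operators with a cyclic trace vector `Ω`.
-/

noncomputable section

namespace Vale.Agent.P086

open scoped InnerProductSpace ENNReal BigOperators

universe u v

section Basic

variable {H : Type u} [NormedAddCommGroup H] [InnerProductSpace ℂ H] [CompleteSpace H]
variable {H' : Type v} [NormedAddCommGroup H'] [InnerProductSpace ℂ H'] [CompleteSpace H']
variable {ι : Type*}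

/-- The vector state. -/
def tr (Ω : H) (a : H →L[ℂ] H) : ℂ := ⟪Ω, a Ω⟫_ℂ

/-- The von Neumann algebra generated by a set: the double commutant of the set and its adjoints. -/
def vn (s : Set (H →L[ℂ] H)) : Set (H →L[ℂ] H) :=
  Set.centralizer (Set.centralizer (s ∪ star '' s))

/-- Conjugation by a unitary between two spaces. -/
def conjU (U : H ≃ₗᵢ[ℂ] H') (a : H →L[ℂ] H) : H' →L[ℂ] H' :=
  (U.toContinuousLinearEquiv : H →L[ℂ] H').comp
    (a.comp (U.symm.toContinuousLinearEquiv : H' →L[ℂ] H))

/-- The product of a family along a list. -/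
def wprod (X : ι → H →L[ℂ] H) (l : List ι) : H →L[ℂ] H := (l.map X).prod

/-- Self-adjoint operators whose moments obey the recursion of a free semicircular family. -/
structure IsSC (Ω : H) (X : ι → H →L[ℂ] H) [DecidableEq ι] : Prop where
  unit : ‖Ω‖ = 1
  sa : ∀ i, IsSelfAdjoint (X i)
  bound : ∀ i, ‖X i‖ ≤ 2
  split : ∀ i (l : List ι), tr Ω (X i * wprod X l)
    = ∑ k : Fin l.length, if l.get k = i then
        tr Ω (wprod X (l.take k.val)) * tr Ω (wprod X (l.drop (k.val + 1))) else 0

/-- A free semicircular family with cyclic trace vector `Ω`. -/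
structure IsSys (Ω : H) (X : ι → H →L[ℂ] H) [DecidableEq ι] : Prop extends IsSC Ω X where
  tracial : ∀ a ∈ vn (Set.range X), ∀ b ∈ vn (Set.range X), tr Ω (a * b) = tr Ω (b * a)
  cyclic : Dense ((fun a : H →L[ℂ] H => a Ω) '' vn (Set.range X))

/-- The operator of a word of a free group. -/
def fgWord [DecidableEq ι] (u : ι → H →L[ℂ] H) (g : FreeGroup ι) : H →L[ℂ] H :=
  (g.toWord.map fun p => if p.2 then u p.1 else star (u p.1)).prod

/-- A free basis of unitaries with cyclic trace vector `Ω`. -/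
structure IsBasis (Ω : H) (u : ι → H →L[ℂ] H) [DecidableEq ι] : Prop where
  unit : ‖Ω‖ = 1
  mem : ∀ i, u i ∈ unitary (H →L[ℂ] H)
  free : ∀ g : FreeGroup ι, tr Ω (fgWord u g) = if g = 1 then 1 else 0
  cyclic : Dense ((fun a : H →L[ℂ] H => a Ω) '' vn (Set.range u))

end Basic

/-! ## The semicircle law -/

/-- The density. -/
def scDens (t : ℝ) : ℝ := Real.sqrt (4 - t ^ 2) / (2 * Real.pi)

/-- The distribution function. -/
def scF (t : ℝ) : ℝ := ∫ x in (-2 : ℝ)..(max (-2) (min t 2)), scDens x

/-- The quantile function. -/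
def scInv (y : ℝ) : ℝ := sInf {t : ℝ | t ∈ Set.Icc (-2 : ℝ) 2 ∧ min y 1 ≤ scF t}

/-- The `i`-th of `K` pieces of the semicircle, as a function of a semicircular variable. -/
def piece (K i : ℕ) (t : ℝ) : ℝ := scInv (((i : ℝ) + scF t) / K)

/-- The phase that turns a semicircular variable into a Haar unitary. -/
def scPhase (t : ℝ) : ℂ := Complex.exp ((2 * Real.pi * scF t : ℝ) * Complex.I)

section Ops

variable {H : Type u} [NormedAddCommGroup H] [InnerProductSpace ℂ H] [CompleteSpace H]

/-- The Haar unitary of a semicircular operator. -/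
def scU (a : H →L[ℂ] H) : H →L[ℂ] H := cfc (fun z : ℂ => scPhase z.re) a

end Ops

/-! ## Lines -/

/-- Lines of `L` slots, two of them sharing at most one slot, at most `d` through a slot. -/
structure Lines {S T : Type*} [Fintype T] [DecidableEq S] (line : T → List S) (L d : ℕ) :
    Prop where
  len : ∀ t, (line t).length = L
  nodup : ∀ t, (line t).Nodup
  meet : ∀ t t', t ≠ t' → ∀ e e', e ∈ line t → e ∈ line t' → e' ∈ line t → e' ∈ line t' → e = e'
  deg : ∀ e, (Finset.univ.filter fun t => e ∈ line t).card ≤ d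

/-! ## Matrices of operators -/

section Mat

variable {H : Type u} [NormedAddCommGroup H] [InnerProductSpace ℂ H] [CompleteSpace H] {K : ℕ}

/-- The space on which matrices of operators act with a trace vector. -/
abbrev HK (H : Type u) (K : ℕ) : Type u := PiLp 2 fun _ : Fin K × Fin K => H

/-- A matrix of operators acting on the left. -/
def matRep (A : Fin K → Fin K → H →L[ℂ] H) : HK H K →L[ℂ] HK H K :=
  ((PiLp.continuousLinearEquiv 2 ℂ fun _ : Fin K × Fin K => H).symm :
      (Fin K × Fin K → H) →L[ℂ] HK H K).comp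
    ((ContinuousLinearMap.pi fun p : Fin K × Fin K =>
        ∑ j, (A p.1 j).comp (ContinuousLinearMap.proj (j, p.2))).comp
      ((PiLp.continuousLinearEquiv 2 ℂ fun _ : Fin K × Fin K => H) :
        HK H K →L[ℂ] (Fin K × Fin K → H)))

/-- The trace vector of the matrices. -/
def matVac (Ω : H) : HK H K :=
  WithLp.toLp 2 fun p : Fin K × Fin K => if p.1 = p.2 then ((Real.sqrt K)⁻¹ : ℂ) • Ω else 0

/-- The Hermitian matrix with coordinates `b`. -/
def herm (b : Fin K × Fin K → H →L[ℂ] H) (i j : Fin K) : H →L[ℂ] H :=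
  if i = j then b (i, i)
  else if i < j then ((Real.sqrt 2)⁻¹ : ℂ) • (b (i, j) + Complex.I • b (j, i))
  else ((Real.sqrt 2)⁻¹ : ℂ) • (b (j, i) - Complex.I • b (i, j))

/-- The coordinates of a gauged matrix: none below the first diagonal entry in the first column. -/
abbrev YIdx (K : ℕ) : Type := {p : Fin K × Fin K // ¬ ((p.2 : ℕ) = 0 ∧ (p.1 : ℕ) ≠ 0)}

/-- The variables of the model that generate the first two operators. -/
abbrev AIdx (K : ℕ) : Type := Fin K ⊕ YIdx K

/-- All the variables of the model. -/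
abbrev MIdx (K : ℕ) : Type := AIdx K ⊕ (Fin K × Fin K)

/-- All the variables before the gauge. -/
abbrev RIdx (K : ℕ) : Type := Fin K ⊕ (Fin K × Fin K) ⊕ (Fin K × Fin K)

/-- The gauged matrix: positive entries in the first row and column. -/
def gaugedBlock (a : YIdx K → H →L[ℂ] H) (i j : Fin K) : H →L[ℂ] H :=
  if h : (i : ℕ) = 0 ∧ (j : ℕ) ≠ 0 then
    cfc (piece 2 1) (a ⟨(i, j), fun hh => h.2 hh.1⟩)
  else if h' : (j : ℕ) = 0 ∧ (i : ℕ) ≠ 0 then
    cfc (piece 2 1) (a ⟨(j, i), fun hh => h'.2 hh.1⟩)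
  else herm (fun p => if hp : ¬ ((p.2 : ℕ) = 0 ∧ (p.1 : ℕ) ≠ 0) then a ⟨p, hp⟩ else 0) i j

/-- The diagonal matrix of the pieces. -/
def xBlock (a : Fin K → H →L[ℂ] H) (i j : Fin K) : H →L[ℂ] H :=
  if i = j then cfc (piece K i) (a i) else 0

/-- The three operators of the model. -/
def triple (a : MIdx K → H →L[ℂ] H) : Fin 3 → HK H K →L[ℂ] HK H K :=
  ![matRep (xBlock fun i => a (.inl (.inl i))),
    ((Real.sqrt K)⁻¹ : ℂ) • matRep (gaugedBlock fun p => a (.inl (.inr p))),
    ((Real.sqrt K)⁻¹ : ℂ) • matRep (herm fun p => a (.inr p))]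

/-- The three operators before the gauge. -/
def rawTriple (b : RIdx K → H →L[ℂ] H) : Fin 3 → HK H K →L[ℂ] HK H K :=
  ![matRep (xBlock fun i => b (.inl i)),
    ((Real.sqrt K)⁻¹ : ℂ) • matRep (herm fun p => b (.inr (.inl p))),
    ((Real.sqrt K)⁻¹ : ℂ) • matRep (herm fun p => b (.inr (.inr p)))]

/-- The matrix with one entry. -/
def entry (i j : Fin K) (c : H →L[ℂ] H) (k l : Fin K) : H →L[ℂ] H :=
  if k = i ∧ l = j then c else 0

end Mat

/-! ## The group algebra -/

section Group

variable (G : Type) [Group G]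

/-- Square summable functions on the group. -/
abbrev L2G : Type := lp (fun _ : G => ℂ) 2

variable {G}

theorem memℓp_shift (g : G) (f : L2G G) : Memℓp (fun x => f (g⁻¹ * x)) 2 := by
  refine memℓp_gen ?_
  have h := (lp.memℓp f).summable (by norm_num : 0 < (2 : ℝ≥0∞).toReal)
  exact (Equiv.mulLeft g⁻¹).summable_iff.2 h

/-- Left translation as a linear map. -/
def lamLin (g : G) : L2G G →ₗ[ℂ] L2G G where
  toFun f := ⟨fun x => f (g⁻¹ * x), memℓp_shift g f⟩
  map_add' _ _ := lp.ext (funext fun _ => rfl)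
  map_smul' _ _ := lp.ext (funext fun _ => rfl)

theorem norm_lamLin_le (g : G) (f : L2G G) : ‖lamLin g f‖ ≤ 1 * ‖f‖ := by
  rw [one_mul, lp.norm_eq_tsum_rpow (by norm_num) (lamLin g f),
    lp.norm_eq_tsum_rpow (by norm_num) f]
  exact le_of_eq (congrArg (· ^ _) ((Equiv.mulLeft g⁻¹).tsum_eq fun x => ‖f x‖ ^ _))

/-- The left regular representation `(lam g f) x = f (g⁻¹ x)`. -/
def lam (g : G) : L2G G →L[ℂ] L2G G := (lamLin g).mkContinuous 1 (norm_lamLin_le g)

/-- The group von Neumann algebra. -/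
def groupVN (G : Type) [Group G] : Set (L2G G →L[ℂ] L2G G) := vn (Set.range (lam (G := G)))

end Group

end Vale.Agent.P086
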