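import Vale.Agent.P086.Defs

/-!
# Interfaces between the modules

Each `...Goal` is proved by one module and none of them is assumed by the hand-in.
See `Vale/Agent/P086/SPEC.md` and `Vale/Agent/P086/PROOF.md`.
-/

noncomputable section

namespace Vale.Agent.P086

open scoped InnerProductSpace BigOperators
open MeasureTheory

universe u v

/-! ## Operators with a cyclic trace vector -/

/-- A tracial algebra with cyclic vector: the trace vector separates, and limits in the vector norm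
stay in the algebra. -/
def OpsGoal : Prop :=
  ∀ {H : Type u} [NormedAddCommGroup H] [InnerProductSpace ℂ H] [CompleteSpace H] (Ω : H)
    (s : Set (H →L[ℂ] H)),
    Dense ((fun a : H →L[ℂ] H => a Ω) '' vn s) →
    (∀ a ∈ vn s, ∀ b ∈ vn s, tr Ω (a * b) = tr Ω (b * a)) →
    (∀ a ∈ vn s, a Ω = 0 → a = 0) ∧
    (∀ a ∈ vn s, ∀ b ∈ vn s, ‖(a * b) Ω‖ ≤ ‖a‖ * ‖b Ω‖ ∧ ‖(a * b) Ω‖ ≤ ‖b‖ * ‖a Ω‖ ∧
      ‖(star a) Ω‖ = ‖a Ω‖) ∧
    (∀ a ∈ vn s, IsSelfAdjoint a → ∀ R : ℝ, 0 ≤ R → (∀ n : ℕ, ‖(a ^ n) Ω‖ ≤ R ^ n) → ‖a‖ ≤ R) ∧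
    (∀ (t : Set (H →L[ℂ] H)), t ⊆ vn s → ∀ a ∈ vn s,
      (∀ ε : ℝ, 0 < ε → ∃ b ∈ vn t, ‖(a - b) Ω‖ ≤ ε) → a ∈ vn t) ∧
    (∀ (t : Set (H →L[ℂ] H)), t ⊆ vn s →
      ∀ (a : ℕ → H →L[ℂ] H) (R : ℝ), (∀ n, a n ∈ vn t) → (∀ n, ‖a n‖ ≤ R) →
      CauchySeq (fun n => a n Ω) →
      ∃ b ∈ vn t, ‖b‖ ≤ R ∧ Filter.Tendsto (fun n => a n Ω) Filter.atTop (nhds (b Ω))) ∧
    ∀ (t : Set (H →L[ℂ] H)), t ⊆ vn s → ∀ a ∈ vn t, ∀ ε : ℝ, 0 < ε →
      ∃ b ∈ StarAlgebra.adjoin ℂ t, ‖(a - b) Ω‖ ≤ ε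

/-- The trace of a generating family is a trace on all of the algebra. -/
def TraceGoal : Prop :=
  (∀ {H : Type u} [NormedAddCommGroup H] [InnerProductSpace ℂ H] [CompleteSpace H] (Ω : H)
    (s : Set (H →L[ℂ] H)), Dense ((fun a : H →L[ℂ] H => a Ω) '' vn s) →
    (∀ a ∈ StarAlgebra.adjoin ℂ s, ∀ b ∈ StarAlgebra.adjoin ℂ s,
      tr Ω (a * b) = tr Ω (b * a)) →
    ∀ a ∈ vn s, ∀ b ∈ vn s, tr Ω (a * b) = tr Ω (b * a)) ∧
  ∀ {H : Type u} [NormedAddCommGroup H] [InnerProductSpace ℂ H] [CompleteSpace H] (Ω : H)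
    {ι : Type} [Fintype ι] [DecidableEq ι] (u : ι → H →L[ℂ] H), IsBasis Ω u →
    ∀ a ∈ vn (Set.range u), ∀ b ∈ vn (Set.range u), tr Ω (a * b) = tr Ω (b * a)

/-- Equal moments give a spatial isomorphism. -/
def GnsGoal : Prop :=
  ∀ {H : Type u} [NormedAddCommGroup H] [InnerProductSpace ℂ H] [CompleteSpace H]
    {H' : Type v} [NormedAddCommGroup H'] [InnerProductSpace ℂ H'] [CompleteSpace H']
    (Ω : H) (Ω' : H') {ι : Type} [Fintype ι] [DecidableEq ι]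
    (X : ι → H →L[ℂ] H) (Y : ι → H' →L[ℂ] H'),
    (IsSys Ω X ∧ IsSys Ω' Y ∨ IsBasis Ω X ∧ IsBasis Ω' Y) →
    ∃ U : H ≃ₗᵢ[ℂ] H', U Ω = Ω' ∧ (∀ i, conjU U (X i) = Y i) ∧
      conjU U '' vn (Set.range X) = vn (Set.range Y)

/-! ## The semicircle law and the conversion to unitaries -/

/-- Facts on the semicircle law. -/
def SemiGoal : Prop :=
  Continuous scF ∧ Monotone scF ∧ StrictMonoOn scF (Set.Icc (-2) 2) ∧ scF (-2) = 0 ∧ scF 2 = 1 ∧
  Continuous scInv ∧ Monotone scInv ∧ (∀ y, scInv y ∈ Set.Icc (-2 : ℝ) 2) ∧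
  (∀ y ∈ Set.Icc (0 : ℝ) 1, scF (scInv y) = y) ∧
  (∀ t ∈ Set.Icc (-2 : ℝ) 2, scInv (scF t) = t) ∧
  (∀ n : ℕ, (∫ t in (-2 : ℝ)..2, scDens t * t ^ n)
    = if Even n then (catalan (n / 2) : ℝ) else 0) ∧
  (∀ (K i : ℕ) (f : ℝ → ℝ), 0 < K → i < K → Continuous f →
    (∫ t in (-2 : ℝ)..2, scDens t * f (piece K i t))
      = K * ∫ t in (scInv ((i : ℝ) / K))..(scInv (((i : ℝ) + 1) / K)), scDens t * f t) ∧
  ∀ (f : ℝ → ℂ) (ε : ℝ), Continuous f → 0 < ε → ∃ (n : ℕ) (c : ℤ → ℂ),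
    (∫ t in (-2 : ℝ)..2, scDens t *
      ‖f t - ∑ k ∈ Finset.Icc (-(n : ℤ)) n, c k * scPhase t ^ k‖ ^ 2) ≤ ε

/-- Continuous functions of one semicircular operator. -/
def CalcGoal : Prop :=
  ∀ {H : Type u} [NormedAddCommGroup H] [InnerProductSpace ℂ H] [CompleteSpace H] (Ω : H)
    {ι : Type} [DecidableEq ι] (X : ι → H →L[ℂ] H), IsSC Ω X → ∀ i,
    (∀ f : ℝ → ℂ, Continuous f →
      cfc (fun z : ℂ => f z.re) (X i) ∈ vn {X i} ∧
      tr Ω (cfc (fun z : ℂ => f z.re) (X i)) = ∫ t in (-2 : ℝ)..2, (scDens t : ℂ) * f t) ∧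
    ∀ f : ℝ → ℝ, Continuous f →
      cfc f (X i) = cfc (fun z : ℂ => ((f z.re : ℝ) : ℂ)) (X i) ∧
      cfc f (X i) ∈ vn {X i} ∧
      tr Ω (cfc f (X i)) = ((∫ t in (-2 : ℝ)..2, scDens t * f t : ℝ) : ℂ)

/-- A free semicircular family becomes a free basis. -/
def ConvGoal : Prop :=
  ∀ {H : Type u} [NormedAddCommGroup H] [InnerProductSpace ℂ H] [CompleteSpace H] (Ω : H)
    {ι : Type} [Fintype ι] [DecidableEq ι] (X : ι → H →L[ℂ] H), IsSys Ω X →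
    IsBasis Ω (fun i => scU (X i)) ∧ ∀ i, vn {scU (X i)} = vn {X i}

/-- Free semicircular families exist. -/
def ExistGoal : Prop :=
  ∀ (ι : Type) [Fintype ι] [DecidableEq ι],
    ∃ (H : Type) (_ : NormedAddCommGroup H) (_ : InnerProductSpace ℂ H) (_ : CompleteSpace H)
      (Ω : H) (X : ι → H →L[ℂ] H), IsSys Ω X

/-! ## Base changes and encoding -/

/-- Automorphisms of the free group and shears send bases to bases. -/
def MoveGoal : Prop :=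
  ∀ {H : Type u} [NormedAddCommGroup H] [InnerProductSpace ℂ H] [CompleteSpace H] (Ω : H)
    {ι : Type} [Fintype ι] [DecidableEq ι] (u : ι → H →L[ℂ] H), IsBasis Ω u →
    (∀ φ : FreeGroup ι ≃* FreeGroup ι,
      IsBasis Ω (fun i => fgWord u (φ (FreeGroup.of i))) ∧
        vn (Set.range fun i => fgWord u (φ (FreeGroup.of i))) = vn (Set.range u)) ∧
    ∀ (J : Set ι) (g : ι → H →L[ℂ] H), (∀ i ∈ J, g i = 1) →
      (∀ i, g i ∈ unitary (H →L[ℂ] H) ∧ g i ∈ vn (u '' J)) →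
      IsBasis Ω (fun i => u i * g i) ∧ vn (Set.range fun i => u i * g i) = vn (Set.range u)

/-- One stage: the products along the lines become the targets. -/
def StageGoal : Prop :=
  ∀ {H : Type u} [NormedAddCommGroup H] [InnerProductSpace ℂ H] [CompleteSpace H] (Ω : H)
    {ι : Type} [Fintype ι] [DecidableEq ι] {S T : Type} [Fintype S] [Fintype T] [DecidableEq S]
    [DecidableEq T] (u : ι → H →L[ℂ] H) (slot : S ↪ ι) (tg : T ↪ ι) (line : T → List S) (L d : ℕ),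
    IsBasis Ω u → (∀ s t, slot s ≠ tg t) → Lines line L d → 3 ≤ L → 0 < d →
    ∃ (u' : ι → H →L[ℂ] H) (γ : T → ℂ), IsBasis Ω u' ∧
      vn (Set.range u') = vn (Set.range u) ∧
      (∀ i, (∀ s, slot s ≠ i) → (∀ t, tg t ≠ i) → u' i = u i) ∧ (∀ t, ‖γ t‖ = 1) ∧
      (∑ t, ‖(wprod (fun s => u' (slot s)) (line t) - γ t • u (tg t)) Ω‖ ^ 2)
        ≤ Fintype.card T * (400 * d / L) ∧
      (∑ s, ‖(u' (slot s) - u (slot s)) Ω‖ ^ 2) ≤ Fintype.card S * (400 * d / (L : ℝ) ^ 2)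

/-- Many targets in few slots by a change of basis. -/
def EncodeGoal : Prop :=
  ∀ (C : ℕ) (ε δ : ℝ), 0 < ε → 0 < δ → ∃ P₀ : ℕ, ∀ P : ℕ, P.Prime → P₀ ≤ P →
    ∀ {H : Type u} [NormedAddCommGroup H] [InnerProductSpace ℂ H] [CompleteSpace H] (Ω : H)
    {ι : Type} [Fintype ι] [DecidableEq ι] {T : Type} [Fintype T] [DecidableEq T]
    (u : ι → H →L[ℂ] H) (slot : Fin P × Fin P ↪ ι) (tg : T ↪ ι),
    IsBasis Ω u → (∀ s t, slot s ≠ tg t) → Fintype.card T ≤ C * P ^ 2 →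
    ∃ (u' X : ι → H →L[ℂ] H), IsBasis Ω u' ∧ vn (Set.range u') = vn (Set.range u) ∧
      (∀ i, (∀ s, slot s ≠ i) → (∀ t, tg t ≠ i) → u' i = u i) ∧
      (∑ s, ‖(u' (slot s) - u (slot s)) Ω‖ ^ 2) ≤ δ * (P : ℝ) ^ 2 ∧
      (∀ t, X (tg t) ∈ unitary (H →L[ℂ] H) ∧
        X (tg t) ∈ vn (Set.range fun s => u' (slot s))) ∧
      (∑ t, ‖(X (tg t) - u (tg t)) Ω‖ ^ 2) ≤ ε * (P : ℝ) ^ 2

/-! ## The model -/

/-- Matrices of operators and their trace vector. -/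
def MatGoal : Prop :=
  ∀ {H : Type u} [NormedAddCommGroup H] [InnerProductSpace ℂ H] [CompleteSpace H] (K : ℕ) (Ω : H),
    0 < K → (‖Ω‖ = 1 → ‖matVac (K := K) Ω‖ = 1) ∧
    (∀ A B : Fin K → Fin K → H →L[ℂ] H,
      matRep A * matRep B = matRep (fun i j => ∑ k, A i k * B k j) ∧
      star (matRep A) = matRep (fun i j => star (A j i)) ∧
      matRep A + matRep B = matRep (fun i j => A i j + B i j) ∧
      tr (matVac Ω) (matRep A) = (K : ℂ)⁻¹ * ∑ i, tr Ω (A i i) ∧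
      ‖matRep A (matVac Ω)‖ ^ 2 = (K : ℝ)⁻¹ * ∑ i, ∑ j, ‖A i j Ω‖ ^ 2) ∧
    (∀ (c : ℂ) (A : Fin K → Fin K → H →L[ℂ] H), c • matRep A = matRep (fun i j => c • A i j)) ∧
    (matRep fun i j => if i = j then (1 : H →L[ℂ] H) else 0) = (1 : HK H K →L[ℂ] HK H K)

/-- Before the gauge the triple has the moments of a free semicircular triple. -/
def RawGoal : Prop :=
  ∀ {H : Type u} [NormedAddCommGroup H] [InnerProductSpace ℂ H] [CompleteSpace H] (K : ℕ) (Ω : H)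
    (b : RIdx K → H →L[ℂ] H), 2 ≤ K → IsSys Ω b →
    ∀ {H' : Type v} [NormedAddCommGroup H'] [InnerProductSpace ℂ H'] [CompleteSpace H'] (Ω' : H')
      (X : Fin 3 → H' →L[ℂ] H'), IsSys Ω' X →
      ∀ l : List (Fin 3), tr (matVac Ω) (wprod (rawTriple b) l) = tr Ω' (wprod X l)

/-- The gauge does not change the moments. -/
def GaugeGoal : Prop :=
  ∀ {H : Type u} [NormedAddCommGroup H] [InnerProductSpace ℂ H] [CompleteSpace H]
    {H' : Type v} [NormedAddCommGroup H'] [InnerProductSpace ℂ H'] [CompleteSpace H']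
    (K : ℕ) (Ω : H) (Ω' : H') (a : MIdx K → H →L[ℂ] H) (b : RIdx K → H' →L[ℂ] H'),
    2 ≤ K → IsSys Ω a → IsSys Ω' b → ∀ l : List (Fin 3),
      tr (matVac Ω) (wprod (triple a) l) = tr (matVac Ω') (wprod (rawTriple b) l)

/-- The model: a free semicircular triple whose first two members generate all matrices over the
algebra of the first variables. -/
def ModelGoal : Prop :=
  ∀ {H : Type u} [NormedAddCommGroup H] [InnerProductSpace ℂ H] [CompleteSpace H] (K : ℕ) (Ω : H)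
    (a : MIdx K → H →L[ℂ] H), 2 ≤ K → IsSys Ω a →
    IsSys (matVac Ω) (triple a) ∧
    ∀ (i j : Fin K), ∀ c ∈ vn (Set.range fun k : AIdx K => a (.inl k)),
      matRep (entry i j c) ∈ vn {triple a 0, triple a 1}

/-- A triple can be moved a little so that the third member is almost in the algebra of the
first two. -/
def StepGoal : Prop :=
  ∀ {H : Type u} [NormedAddCommGroup H] [InnerProductSpace ℂ H] [CompleteSpace H] (Ω : H)
    (X : Fin 3 → H →L[ℂ] H), IsSys Ω X → ∀ ε δ : ℝ, 0 < ε → 0 < δ →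
    ∃ X' : Fin 3 → H →L[ℂ] H, IsSys Ω X' ∧ vn (Set.range X') = vn (Set.range X) ∧
      ‖(X' 0 - X 0) Ω‖ ≤ δ ∧ ‖(X' 1 - X 1) Ω‖ ≤ δ ∧
      ∃ c ∈ vn {X' 0, X' 1}, IsSelfAdjoint c ∧ ‖(c - X 2) Ω‖ ≤ ε

/-- The limit: the algebra of a free semicircular triple has a generating free semicircular
pair. -/
def LimitGoal : Prop :=
  ∀ {H : Type u} [NormedAddCommGroup H] [InnerProductSpace ℂ H] [CompleteSpace H] (Ω : H)
    (X : Fin 3 → H →L[ℂ] H), IsSys Ω X →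
    ∃ Y : Fin 2 → H →L[ℂ] H, IsSys Ω Y ∧ vn (Set.range Y) = vn (Set.range X)

/-- The free group factors of rank two and three are spatially isomorphic. -/
def FinalGoal : Prop :=
  ∃ U : L2G (FreeGroup (Fin 2)) ≃ₗᵢ[ℂ] L2G (FreeGroup (Fin 3)),
    conjU U '' groupVN (FreeGroup (Fin 2)) = groupVN (FreeGroup (Fin 3))

end Vale.Agent.P086
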